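import Mathlib

/-!
# P205: data for the abstract exact-correction theorem

A quadratic equation with a loss-tolerant right inverse of its linearisation and smoothing
operators, seen only through seminorms.  `p i` are seminorms on the unknowns, `err i x` is the
`i`-th seminorm of the error at `x`, `W x` is the right inverse at `x` applied to the error at `x`
(so the full Newton step is `x - W x`), `S t` is smoothing at frequency `t`, and `Sup t` records
supports.  The seminorms of `x` above order `a` are known to be at most `t ^ (j - a)`,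
so derivatives of order at most `a` never cost a power of the frequency.  The error after a step
is only estimated for steps of size at most one, so the equation need not be quadratic.
-/

namespace Vale.Agent.P205.Newton

/-- Seminorm data for the loss-tolerant Newton scheme. -/
structure Data (X : Type*) [AddCommGroup X] where
  /-- loss of derivatives -/
  a : ℕ
  /-- constants, independent of the large parameter -/
  C : ℕ → ℝ
  /-- the large parameter -/
  Lam : ℝ
  /-- radius on which the right inverse is valid -/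
  rho : ℝ
  /-- seminorms of the unknown -/
  p : ℕ → X → ℝ
  /-- seminorms of the error -/
  err : ℕ → X → ℝ
  /-- smoothing -/
  S : ℝ → X → X
  /-- the full Newton correction -/
  W : X → X
  /-- support at stage `t` -/
  Sup : ℝ → X → Prop
  p_nonneg : ∀ i x, 0 ≤ p i x
  err_nonneg : ∀ i x, 0 ≤ err i x
  p_zero : ∀ i, p i 0 = 0
  p_sub : ∀ i x y, p i (x - y) ≤ p i x + p i y
  p_mono : ∀ i j x, i ≤ j → p i x ≤ p j x
  sup_zero : ∀ s, Sup s 0
  sup_step : ∀ s t x, Lam ≤ s → 2 * s ≤ t → p a x ≤ rho → Sup s x → Sup t (x - S t (W x))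
  smooth_le : ∀ i s t x, Lam ≤ s → 2 * s ≤ t → p a x ≤ rho → Sup s x →
    p i (S t (W x)) ≤ C i * t ^ (i + a) * p 0 (W x)
  smooth_err : ∀ i k s t x, i ≤ k → Lam ≤ s → 2 * s ≤ t → p a x ≤ rho → Sup s x →
    p i (W x - S t (W x)) * t ^ k ≤ C k * t ^ (i + a) * p k (W x)
  W_le : ∀ i t δ x, Lam ≤ t → p a x ≤ rho → (∀ j ≤ i + a, p j x ≤ t ^ (j - a)) →
    (∀ j ≤ i + a, err j x ≤ δ * t ^ j) → p i (W x) ≤ C i * Lam ^ (a * (i + 1)) * t ^ (i + a) * δ
  err_le : ∀ i t x, Lam ≤ t → p a x ≤ rho → (∀ j ≤ i + a, p j x ≤ t ^ (j - a)) →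
    err i x ≤ C i * t ^ (i + a)
  err_step : ∀ i t x v, Lam ≤ t → p a x ≤ rho → (∀ j ≤ i + a, p j x ≤ t ^ (j - a)) →
    p (i + a) v ≤ 1 →
    err i (x - v) ≤ C i * t ^ (i + a) * (p (i + a) (W x - v) + p (i + a) v ^ 2)

/-- Number of seminorms whose constants must be dominated by `Lam`. -/
def order (a : ℕ) : ℕ := 2000 * (a + 1)

/-- Required smallness exponent of the initial error. -/
def smallExp (a : ℕ) : ℕ := 400 * (a + 1) ^ 2

end Vale.Agent.P205.Newton
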