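import Mathlib
import Vale.Agent.P205.Newton.Defs

/-!
# P205: the abstract exact-correction theorem

A Newton scheme with smoothing in which the only high-seminorm bound, `p j u ≤ T ^ (j - a)`, comes from
the smoothing itself.
-/

namespace Vale.Agent.P205.Newton

open Finset Filter

/-- exponents of the frequencies -/
def es (a : ℕ) : ℕ → ℕ
  | 0 => 4 * a + 4
  | n + 1 => es a n + es a n / 2

lemma es_ge (a : ℕ) : ∀ n, 4 * a + 4 + 2 * n ≤ es a n
  | 0 => le_rfl
  | n + 1 => by have := es_ge a n; simp only [es]; omega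

/-- decay exponent of the existence run -/
def bexp (a : ℕ) : ℕ := 60 * (a + 1)

/-- number of controlled seminorms needed for decay exponent `β` -/
def kexp (a β : ℕ) : ℕ := 6 * β + 50 * (a + 1)

lemma exp_A {a β e f : ℕ} (he : 4 * a + 4 ≤ e) (hf : f = e + e / 2) :
    2 * a * e + 3 * a * f + a * (kexp a β + 1) + (kexp a β + 2 * a) * e + (β + 1) * f
      ≤ kexp a β * f := by
  have h1 : 2 * f ≤ 3 * e := by omega
  have h2 : 4 * (a + e) + e ≤ 4 * f := by omega
  have h3 := Nat.mul_le_mul_left (kexp a β) h2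
  have h4 := Nat.mul_le_mul_left (3 * a + β + 1) h1
  simp only [kexp] at *
  nlinarith [Nat.zero_le (a * e), Nat.zero_le (β * e)]

lemma exp_Q {a β e f : ℕ} (he : 4 * a + 4 ≤ e) (hf : f = e + e / 2) (hβ : bexp a ≤ β) :
    2 * a * e + 2 * (3 * a * f + a + a * e) + (β + 1) * f ≤ 2 * (β * e) := by
  have h1 : 2 * f ≤ 3 * e := by omega
  have h4 := Nat.mul_le_mul_left (6 * a + β + 1) h1
  have h5 := Nat.mul_le_mul_right e hβ
  simp only [bexp] at *
  nlinarith [Nat.zero_le (a * e)]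

variable {X : Type*} [AddCommGroup X] (D : Data X)

/-- bound on the correction and on the new error -/
lemma step_bounds {K : ℕ} {c s t u δ : ℝ} {x : X} (h1 : 1 ≤ D.Lam) (hc : 1 ≤ c)
    (hC : ∀ i ≤ K + 2 * D.a, |D.C i| ≤ c) (hK : 2 * D.a ≤ K)
    (hs : D.Lam ≤ s) (hsu : 2 * s ≤ u) (hsup : D.Sup s x) (hgood : D.p D.a x ≤ D.rho)
    (ht : D.Lam ≤ t) (hx : ∀ j ≤ K + 2 * D.a, D.p j x ≤ t ^ (j - D.a))
    (he : ∀ j ≤ D.a, D.err j x ≤ δ) :
    (∀ j ≤ K, D.p j (D.S u (D.W x)) ≤ c ^ 2 * u ^ (j + D.a) * (D.Lam ^ D.a * t ^ D.a * δ)) ∧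
      ∀ i ≤ D.a, D.p (2 * D.a) (D.S u (D.W x)) ≤ 1 → D.err i (x - D.S u (D.W x)) ≤ c ^ 5 * t ^ (2 * D.a) *
        (u ^ (3 * D.a) * D.Lam ^ (D.a * (K + 1)) * t ^ (K + 2 * D.a) / u ^ K
          + (u ^ (3 * D.a) * (D.Lam ^ D.a * t ^ D.a * δ)) ^ 2) := by
  have hC' : ∀ i ≤ K + 2 * D.a, D.C i ≤ c := fun i hi => (le_abs_self _).trans (hC i hi)
  have ht1 : 1 ≤ t := h1.trans ht
  have hu1 : 1 ≤ u := by linarith
  have hu0 : 0 < u := by linarith
  have hδ : 0 ≤ δ := (D.err_nonneg 0 x).trans (he 0 (Nat.zero_le _))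
  have hA0 : 0 ≤ D.Lam ^ D.a * t ^ D.a * δ := by positivity
  have hw0 : D.p 0 (D.W x) ≤ c * (D.Lam ^ D.a * t ^ D.a * δ) := by
    have h := D.W_le 0 t δ x ht hgood (fun j hj => hx j (by omega)) fun j hj =>
      (he j (by omega)).trans (le_mul_of_one_le_right hδ (one_le_pow₀ ht1))
    simp only [Nat.zero_add, Nat.mul_one] at h
    calc D.p 0 (D.W x) ≤ D.C 0 * D.Lam ^ D.a * t ^ D.a * δ := h
      _ = D.C 0 * (D.Lam ^ D.a * t ^ D.a * δ) := by ring
      _ ≤ _ := mul_le_mul_of_nonneg_right (hC' 0 (by omega)) hA0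
  have hv : ∀ j ≤ K, D.p j (D.S u (D.W x)) ≤
      c ^ 2 * u ^ (j + D.a) * (D.Lam ^ D.a * t ^ D.a * δ) := fun j hj => by
    refine (D.smooth_le j s u x hs hsu hgood hsup).trans ?_
    calc D.C j * u ^ (j + D.a) * D.p 0 (D.W x)
        ≤ c * u ^ (j + D.a) * (c * (D.Lam ^ D.a * t ^ D.a * δ)) :=
          mul_le_mul (mul_le_mul_of_nonneg_right (hC' j (by omega)) (by positivity)) hw0
            (D.p_nonneg _ _) (by positivity)
      _ = _ := by ring
  refine ⟨hv, fun i hi hsm => ?_⟩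
  have hwK : D.p K (D.W x) ≤ c ^ 2 * (D.Lam ^ (D.a * (K + 1)) * t ^ (K + 2 * D.a)) := by
    have h := D.W_le K t (c * t ^ D.a) x ht hgood (fun j hj => hx j (by omega)) fun j hj => by
      refine (D.err_le j t x ht hgood fun l hl => hx l (by omega)).trans ?_
      calc D.C j * t ^ (j + D.a) ≤ c * t ^ (j + D.a) :=
            mul_le_mul_of_nonneg_right (hC' j (by omega)) (by positivity)
        _ = _ := by ring
    refine h.trans ?_
    calc D.C K * D.Lam ^ (D.a * (K + 1)) * t ^ (K + D.a) * (c * t ^ D.a)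
        ≤ c * D.Lam ^ (D.a * (K + 1)) * t ^ (K + D.a) * (c * t ^ D.a) := by
          gcongr
          exact hC' K (by omega)
      _ = _ := by rw [show K + 2 * D.a = K + D.a + D.a by omega, pow_add t (K + D.a)]; ring
  have hdiff : D.p (2 * D.a) (D.W x - D.S u (D.W x)) ≤
      c ^ 3 * (u ^ (3 * D.a) * D.Lam ^ (D.a * (K + 1)) * t ^ (K + 2 * D.a) / u ^ K) := by
    rw [mul_div_assoc', le_div_iff₀ (by positivity)]
    refine (D.smooth_err (2 * D.a) K s u x hK hs hsu hgood hsup).trans ?_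
    calc D.C K * u ^ (2 * D.a + D.a) * D.p K (D.W x)
        ≤ c * u ^ (2 * D.a + D.a) * (c ^ 2 * (D.Lam ^ (D.a * (K + 1)) * t ^ (K + 2 * D.a))) :=
          mul_le_mul (mul_le_mul_of_nonneg_right (hC' K (by omega)) (by positivity)) hwK
            (D.p_nonneg _ _) (by positivity)
      _ = _ := by rw [show 2 * D.a + D.a = 3 * D.a by omega]; ring
  have hv2 : D.p (i + D.a) (D.S u (D.W x)) ≤
      c ^ 2 * (u ^ (3 * D.a) * (D.Lam ^ D.a * t ^ D.a * δ)) := by
    refine (D.p_mono _ (2 * D.a) _ (by omega)).trans ((hv _ hK).trans (le_of_eq ?_))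
    rw [show 2 * D.a + D.a = 3 * D.a by omega]; ring
  refine (D.err_step i t x _ ht hgood (fun j hj => hx j (by omega))
    ((D.p_mono _ _ _ (by omega)).trans hsm)).trans ?_
  set A := u ^ (3 * D.a) * D.Lam ^ (D.a * (K + 1)) * t ^ (K + 2 * D.a) / u ^ K
  set Q := u ^ (3 * D.a) * (D.Lam ^ D.a * t ^ D.a * δ)
  have hA : 0 ≤ A := by positivity
  have h2 : D.p (i + D.a) (D.S u (D.W x)) ^ 2 ≤ (c ^ 2 * Q) ^ 2 :=
    pow_le_pow_left₀ (D.p_nonneg _ _) hv2 2
  calc D.C i * t ^ (i + D.a) * (D.p (i + D.a) (D.W x - D.S u (D.W x))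
          + D.p (i + D.a) (D.S u (D.W x)) ^ 2)
      ≤ c * t ^ (2 * D.a) * (c ^ 3 * A + (c ^ 2 * Q) ^ 2) :=
        mul_le_mul (mul_le_mul (hC' i (by omega)) (pow_le_pow_right₀ ht1 (by omega))
          (by positivity) (by linarith))
          (add_le_add ((D.p_mono _ _ _ (by omega)).trans hdiff) h2)
          (add_nonneg (D.p_nonneg _ _) (sq_nonneg _)) (by positivity)
    _ = c * t ^ (2 * D.a) * (c ^ 3 * A + c ^ 4 * Q ^ 2) := by ring
    _ ≤ c * t ^ (2 * D.a) * (c ^ 4 * A + c ^ 4 * Q ^ 2) := by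
        gcongr
        linarith
    _ = _ := by ring

/-- one decay step: exponent `β` at frequency `e` gives `β + 1` at frequency `f` -/
lemma decay {β e f : ℕ} {c k d : ℝ} {x : X} (h1 : 1 ≤ D.Lam) (hc : 1 ≤ c) (hk : 1 ≤ k)
    (_hd : 0 ≤ d) (he : 4 * D.a + 4 ≤ e) (hf : f = e + e / 2) (hβ : bexp D.a ≤ β)
    (hC : ∀ i ≤ kexp D.a β + 2 * D.a, |D.C i| ≤ c) (h2 : 2 ≤ D.Lam)
    (hsup : D.Sup (D.Lam ^ e) x) (hgood : D.p D.a x ≤ D.rho)
    (hx : ∀ j ≤ kexp D.a β + 2 * D.a, D.p j x ≤ (k * D.Lam ^ e) ^ (j - D.a))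
    (herr : ∀ j ≤ D.a, D.err j x ≤ d / D.Lam ^ (β * e))
    (hsm : D.p (2 * D.a) (D.S (D.Lam ^ f) (D.W x)) ≤ 1) :
    ∀ i ≤ D.a, D.err i (x - D.S (D.Lam ^ f) (D.W x)) ≤
      c ^ 5 * k ^ (kexp D.a β + 4 * D.a) * (1 + d ^ 2) / D.Lam ^ ((β + 1) * f) := by
  intro i hi
  set a := D.a
  set L := D.Lam
  set K := kexp a β with hK
  have hL : 0 < L := by linarith
  have hs : L ≤ L ^ e := le_self_pow₀ h1 (by omega)
  have hsu : 2 * L ^ e ≤ L ^ f := by
    calc 2 * L ^ e ≤ L * L ^ e := by gcongr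
      _ = L ^ (e + 1) := by ring
      _ ≤ L ^ f := pow_le_pow_right₀ h1 (by omega)
  have h := (step_bounds D h1 hc hC (by simp only [hK, kexp]; omega) hs hsu hsup hgood
    (hs.trans (le_mul_of_one_le_left (by positivity) hk)) hx herr).2 i hi hsm
  refine h.trans ?_
  have eA := pow_le_pow_right₀ h1 (exp_A (β := β) he hf)
  have eQ := pow_le_pow_right₀ h1 (exp_Q he hf hβ)
  rw [← hK] at eA
  have hkA : k ^ (2 * a + (K + 2 * a)) ≤ k ^ (K + 4 * a) := pow_le_pow_right₀ hk (by omega)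
  have hkQ : k ^ (2 * a + 2 * a) ≤ k ^ (K + 4 * a) := pow_le_pow_right₀ hk (by omega)
  have hA : (k * L ^ e) ^ (2 * a) * ((L ^ f) ^ (3 * a) * L ^ (a * (K + 1)) *
      (k * L ^ e) ^ (K + 2 * a) / (L ^ f) ^ K) ≤ k ^ (K + 4 * a) / L ^ ((β + 1) * f) := by
    rw [mul_div_assoc', div_le_div_iff₀ (by positivity) (by positivity)]
    calc (k * L ^ e) ^ (2 * a) * ((L ^ f) ^ (3 * a) * L ^ (a * (K + 1)) *
            (k * L ^ e) ^ (K + 2 * a)) * L ^ ((β + 1) * f)
        = k ^ (2 * a + (K + 2 * a)) * L ^ (2 * a * e + 3 * a * f + a * (K + 1)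
            + (K + 2 * a) * e + (β + 1) * f) := by ring
      _ ≤ k ^ (K + 4 * a) * L ^ (K * f) := mul_le_mul hkA eA (by positivity) (by positivity)
      _ = _ := by ring
  have hQ : (k * L ^ e) ^ (2 * a) * ((L ^ f) ^ (3 * a) * (L ^ a * (k * L ^ e) ^ a *
      (d / L ^ (β * e)))) ^ 2 ≤ k ^ (K + 4 * a) * d ^ 2 / L ^ ((β + 1) * f) := by
    rw [show (k * L ^ e) ^ (2 * a) * ((L ^ f) ^ (3 * a) * (L ^ a * (k * L ^ e) ^ a *
        (d / L ^ (β * e)))) ^ 2 = k ^ (2 * a + 2 * a) * d ^ 2 *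
        L ^ (2 * a * e + 2 * (3 * a * f + a + a * e)) / L ^ (2 * (β * e)) by
      simp only [div_eq_mul_inv, mul_pow, inv_pow, ← pow_mul]; ring,
      div_le_div_iff₀ (by positivity) (by positivity)]
    calc k ^ (2 * a + 2 * a) * d ^ 2 * L ^ (2 * a * e + 2 * (3 * a * f + a + a * e)) *
            L ^ ((β + 1) * f)
        = k ^ (2 * a + 2 * a) * d ^ 2 *
            L ^ (2 * a * e + 2 * (3 * a * f + a + a * e) + (β + 1) * f) := by ring
      _ ≤ k ^ (K + 4 * a) * d ^ 2 * L ^ (2 * (β * e)) :=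
          mul_le_mul (mul_le_mul_of_nonneg_right hkQ (sq_nonneg d)) eQ (by positivity)
            (by positivity)
  calc c ^ 5 * (k * L ^ e) ^ (2 * a) * ((L ^ f) ^ (3 * a) * L ^ (a * (K + 1)) *
          (k * L ^ e) ^ (K + 2 * a) / (L ^ f) ^ K
          + ((L ^ f) ^ (3 * a) * (L ^ a * (k * L ^ e) ^ a * (d / L ^ (β * e)))) ^ 2)
      = c ^ 5 * ((k * L ^ e) ^ (2 * a) * ((L ^ f) ^ (3 * a) * L ^ (a * (K + 1)) *
          (k * L ^ e) ^ (K + 2 * a) / (L ^ f) ^ K) + (k * L ^ e) ^ (2 * a) *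
          ((L ^ f) ^ (3 * a) * (L ^ a * (k * L ^ e) ^ a * (d / L ^ (β * e)))) ^ 2) := by ring
    _ ≤ c ^ 5 * (k ^ (K + 4 * a) / L ^ ((β + 1) * f) +
          k ^ (K + 4 * a) * d ^ 2 / L ^ ((β + 1) * f)) :=
        mul_le_mul_of_nonneg_left (add_le_add hA hQ) (by positivity)
    _ = _ := by ring

/-- the iterates -/
def seq : ℕ → X
  | 0 => 0
  | n + 1 => seq n - D.S (D.Lam ^ es D.a (n + 1)) (D.W (seq n))

lemma half_step (n : ℕ) : (1 : ℝ) - (1 / 2) ^ n + (1 / 2) ^ (n + 1) = 1 - (1 / 2) ^ (n + 1) := by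
  ring

/-- size of a correction at exponent `β` -/
lemma corr_le {i β e f m : ℕ} {L k d : ℝ} (h1 : 1 ≤ L)
    (h : (i + D.a) * f + D.a + D.a * e + m ≤ β * e) (hk : 0 ≤ k) (hd : 0 ≤ d) :
    (L ^ f) ^ (i + D.a) * (L ^ D.a * (k * L ^ e) ^ D.a * (d / L ^ (β * e))) ≤
      k ^ D.a * d / L ^ m := by
  have hL : 0 < L := by linarith
  rw [show (L ^ f) ^ (i + D.a) * (L ^ D.a * (k * L ^ e) ^ D.a * (d / L ^ (β * e))) =
      k ^ D.a * d * L ^ ((i + D.a) * f + D.a + D.a * e) / L ^ (β * e) by ring,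
    div_le_div_iff₀ (by positivity) (by positivity)]
  calc k ^ D.a * d * L ^ ((i + D.a) * f + D.a + D.a * e) * L ^ m
      = k ^ D.a * d * L ^ ((i + D.a) * f + D.a + D.a * e + m) := by ring
    _ ≤ _ := mul_le_mul_of_nonneg_left (pow_le_pow_right₀ h1 h) (by positivity)

variable {D}

lemma exists_const (D : Data X) (N : ℕ) : ∃ c : ℝ, 1 ≤ c ∧ ∀ i ≤ N, |D.C i| ≤ c := by
  refine ⟨1 + ∑ i ∈ range (N + 1), |D.C i|, ?_, fun i hi => ?_⟩
  · have : 0 ≤ ∑ i ∈ range (N + 1), |D.C i| := sum_nonneg fun _ _ => abs_nonneg _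
    linarith
  · have := single_le_sum (f := fun i => |D.C i|) (fun _ _ => abs_nonneg _)
      (mem_range.2 (show i < N + 1 by omega))
    linarith

/-- the invariant of the existence run -/
structure Inv (D : Data X) (n : ℕ) : Prop where
  sup : D.Sup (D.Lam ^ es D.a n) (seq D n)
  small : D.p D.a (seq D n) ≤ (1 - (1 / 2) ^ n) * D.Lam⁻¹
  high : ∀ j ≤ order D.a, D.p j (seq D n) ≤ (1 - (1 / 2) ^ n) * (D.Lam ^ es D.a n) ^ (j - D.a)
  err : ∀ j ≤ D.a, D.err j (seq D n) ≤ 1 / D.Lam ^ (bexp D.a * es D.a n)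

lemma Inv.good {n : ℕ} (h : Inv D n) (h1 : 1 ≤ D.Lam) (hrho : D.Lam⁻¹ ≤ D.rho) :
    D.p D.a (seq D n) ≤ D.Lam⁻¹ ∧ D.p D.a (seq D n) ≤ D.rho := by
  have : D.p D.a (seq D n) ≤ D.Lam⁻¹ := h.small.trans (mul_le_of_le_one_left (by positivity)
    (sub_le_self _ (by positivity)))
  exact ⟨this, this.trans hrho⟩

/-- a step is at most one in the seminorm of order `2 a` -/
lemma Inv.step_small {n : ℕ} (h : Inv D n) (h2 : 2 ≤ D.Lam) (hrho : D.Lam⁻¹ ≤ D.rho)
    (hC : ∀ i ≤ order D.a, |D.C i| ≤ D.Lam) :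
    D.p (2 * D.a) (D.S (D.Lam ^ es D.a (n + 1)) (D.W (seq D n))) ≤ 1 := by
  have h1 : 1 ≤ D.Lam := by linarith
  set a := D.a
  set L := D.Lam
  set e := es a n with he
  set f := es a (n + 1) with hfdef
  have hf : f = e + e / 2 := rfl
  have hge := es_ge a n
  have hs : L ≤ L ^ e := le_self_pow₀ h1 (by omega)
  have hsu : 2 * L ^ e ≤ L ^ f := by
    calc 2 * L ^ e ≤ L * L ^ e := by gcongr
      _ = L ^ (e + 1) := by ring
      _ ≤ L ^ f := pow_le_pow_right₀ h1 (by omega)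
  have hv := (step_bounds D (K := 2 * a) (t := L ^ e) h1 (show (1 : ℝ) ≤ L from h1)
    (fun i hi => hC i (by simp only [order]; omega)) le_rfl hs hsu h.sup (h.good h1 hrho).2 hs
    (fun j hj => (h.high j (by simp only [order]; omega)).trans
      (mul_le_of_le_one_left (by positivity) (sub_le_self _ (by positivity)))) h.err).1 _ le_rfl
  refine hv.trans ?_
  have hexp : (2 * a + a) * f + a + a * e + 2 ≤ bexp a * e := by
    have := Nat.mul_le_mul_left (2 * a + a) (show 2 * f ≤ 3 * e by omega)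
    simp only [bexp]
    nlinarith
  have hc := corr_le D (k := 1) (d := 1) (i := 2 * a) h1 hexp zero_le_one zero_le_one
  simp only [one_pow, one_mul] at hc
  rw [mul_assoc]
  refine (mul_le_mul_of_nonneg_left hc (by positivity)).trans (le_of_eq ?_)
  field_simp

lemma Inv.succ {n : ℕ} (h : Inv D n) (h2 : 2 ≤ D.Lam) (hrho : D.Lam⁻¹ ≤ D.rho)
    (hC : ∀ i ≤ order D.a, |D.C i| ≤ D.Lam) : Inv D (n + 1) := by
  have h1 : 1 ≤ D.Lam := by linarith
  have hL : 0 < D.Lam := by linarith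
  set a := D.a
  set L := D.Lam
  set e := es a n with he
  set f := es a (n + 1) with hfdef
  have hf : f = e + e / 2 := rfl
  have hge := es_ge a n
  have hgood := (h.good h1 hrho).2
  have hK : kexp a (bexp a) + 2 * a ≤ order a := by simp only [kexp, bexp, order]; omega
  have hKo : order a - 2 * a + 2 * a = order a := by simp only [order]; omega
  have hbd : ∀ j ≤ order a, D.p j (seq D n) ≤ (L ^ e) ^ (j - a) := fun j hj =>
    (h.high j hj).trans (mul_le_of_le_one_left (by positivity) (sub_le_self _ (by positivity)))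
  have hs : L ≤ L ^ e := le_self_pow₀ h1 (by omega)
  have hsu : 2 * L ^ e ≤ L ^ f := by
    calc 2 * L ^ e ≤ L * L ^ e := by gcongr
      _ = L ^ (e + 1) := by ring
      _ ≤ L ^ f := pow_le_pow_right₀ h1 (by omega)
  have hv := (step_bounds D (K := order a - 2 * a) (t := L ^ e) h1 (show (1 : ℝ) ≤ L from h1)
    (by rw [hKo]; exact hC) (by simp only [order]; omega) hs hsu h.sup hgood hs
    (by rw [hKo]; exact hbd) h.err).1
  have hsize : ∀ j ≤ order a - 2 * a, ∀ i ≤ a,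
      D.p j (D.S (L ^ f) (D.W (seq D n))) ≤ (L ^ f) ^ (j - a) * (1 / 2) ^ (n + 1) ∧
        D.p i (D.S (L ^ f) (D.W (seq D n))) ≤ L⁻¹ * (1 / 2) ^ (n + 1) := by
    intro j hj i hi
    have hf2 : 2 * f ≤ 3 * e := by omega
    have hee : n + 4 ≤ e := by omega
    have key : ∀ l ≤ a, (l + a) * f + a + a * e + (n + 4) ≤ bexp a * e := fun l hl => by
      have := Nat.mul_le_mul_left (l + a) hf2
      have := Nat.mul_le_mul_right e hl
      simp only [bexp]
      nlinarith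
    have hb : ∀ m, (1 : ℝ) / L ^ m ≤ (1 / 2) ^ m := fun m => by
      rw [one_div_pow]
      exact one_div_le_one_div_of_le (by positivity) (pow_le_pow_left₀ (by norm_num) h2 m)
    have bound : ∀ l ≤ a, L ^ 2 * ((L ^ f) ^ (l + a) * (L ^ a * (L ^ e) ^ a *
        (1 / L ^ (bexp a * e)))) ≤ L⁻¹ * (1 / 2) ^ (n + 1) := fun l hl => by
      have hc := corr_le D (k := 1) (d := 1) h1 (key l hl) zero_le_one zero_le_one
      simp only [one_pow, one_mul] at hc
      refine (mul_le_mul_of_nonneg_left hc (by positivity)).trans ?_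
      calc L ^ 2 * (1 / L ^ (n + 4)) = L⁻¹ * (1 / L ^ (n + 1)) := by field_simp; ring
        _ ≤ _ := by gcongr; exact hb _
    refine ⟨(hv j hj).trans ?_, (hv i (by simp only [order]; omega)).trans
      ((le_of_eq (mul_assoc _ _ _)).trans (bound i hi))⟩
    have h0 := bound a le_rfl
    have hj2 : (L ^ f) ^ (j + a) ≤ (L ^ f) ^ (j - a) * (L ^ f) ^ (a + a) := by
      rw [← pow_add]; exact pow_le_pow_right₀ (one_le_pow₀ h1) (by omega)
    calc L ^ 2 * (L ^ f) ^ (j + a) * (L ^ a * (L ^ e) ^ a * (1 / L ^ (bexp a * e)))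
        ≤ L ^ 2 * ((L ^ f) ^ (j - a) * (L ^ f) ^ (a + a)) *
            (L ^ a * (L ^ e) ^ a * (1 / L ^ (bexp a * e))) := by gcongr
      _ = (L ^ f) ^ (j - a) * (L ^ 2 * ((L ^ f) ^ (a + a) * (L ^ a * (L ^ e) ^ a *
            (1 / L ^ (bexp a * e))))) := by ring
      _ ≤ (L ^ f) ^ (j - a) * (L⁻¹ * (1 / 2) ^ (n + 1)) := by gcongr
      _ ≤ _ := by
        gcongr
        exact mul_le_of_le_one_left (by positivity) (inv_le_one_of_one_le₀ h1)
  refine ⟨?_, ?_, fun j hj => ?_, ?_⟩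
  · exact D.sup_step _ _ _ hs hsu hgood h.sup
  · refine (D.p_sub _ _ _).trans ((add_le_add h.small
      (hsize 0 (Nat.zero_le _) a le_rfl).2).trans (le_of_eq ?_))
    rw [← half_step n]; ring
  · have hmono : (L ^ e) ^ (j - a) ≤ (L ^ f) ^ (j - a) :=
      pow_le_pow_left₀ (by positivity) (pow_le_pow_right₀ h1 (by omega)) _
    have hv' : D.p j (D.S (L ^ f) (D.W (seq D n))) ≤ (L ^ f) ^ (j - a) * (1 / 2) ^ (n + 1) := by
      rcases Nat.lt_or_ge (order a - 2 * a) j with hlt | hle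
      · refine (D.smooth_le j _ _ _ hs hsu hgood h.sup).trans ?_
        have h0 := (D.W_le 0 (L ^ e) (1 / L ^ (bexp a * e)) (seq D n) hs hgood
          (fun l hl => hbd l (by simp only [order] at *; omega))
          fun l hl => (h.err l (by omega)).trans
            (le_mul_of_one_le_right (by positivity) (one_le_pow₀ (hs.trans' h1))))
        simp only [Nat.zero_add, Nat.mul_one] at h0
        have hC0 : D.C 0 ≤ L := (le_abs_self _).trans (hC 0 (Nat.zero_le _))
        have hCj : D.C j ≤ L := (le_abs_self _).trans (hC j hj)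
        have hf2 : 2 * f ≤ 3 * e := by omega
        have hexp : (a + a) * f + a + a * e + (n + 3) ≤ bexp a * e := by
          have := Nat.mul_le_mul_left (a + a) hf2
          simp only [bexp]
          nlinarith
        have hc := corr_le D (k := 1) (d := 1) h1 hexp zero_le_one zero_le_one
        simp only [one_pow, one_mul] at hc
        have hj2 : (L ^ f) ^ (j + a) ≤ (L ^ f) ^ (j - a) * (L ^ f) ^ (a + a) := by
          rw [← pow_add]; exact pow_le_pow_right₀ (one_le_pow₀ h1) (by omega)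
        calc D.C j * (L ^ f) ^ (j + a) * D.p 0 (D.W (seq D n))
            ≤ L * (L ^ f) ^ (j + a) * (L * (L ^ a * (L ^ e) ^ a * (1 / L ^ (bexp a * e)))) := by
              refine mul_le_mul (mul_le_mul_of_nonneg_right hCj (by positivity)) (h0.trans ?_)
                (D.p_nonneg _ _) (by positivity)
              rw [← mul_assoc L, ← mul_assoc L]
              gcongr
          _ ≤ L * ((L ^ f) ^ (j - a) * (L ^ f) ^ (a + a)) *
                (L * (L ^ a * (L ^ e) ^ a * (1 / L ^ (bexp a * e)))) := by gcongr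
          _ = (L ^ f) ^ (j - a) * (L ^ 2 * ((L ^ f) ^ (a + a) *
                (L ^ a * (L ^ e) ^ a * (1 / L ^ (bexp a * e))))) := by ring
          _ ≤ (L ^ f) ^ (j - a) * (L ^ 2 * (1 / L ^ (n + 3))) := by gcongr
          _ = (L ^ f) ^ (j - a) * (1 / L ^ (n + 1)) := by field_simp; ring
          _ ≤ _ := by
            gcongr
            rw [one_div_pow]
            exact one_div_le_one_div_of_le (by positivity) (pow_le_pow_left₀ (by norm_num) h2 _)
      · exact (hsize j hle 0 (Nat.zero_le _)).1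
    calc D.p j (seq D n - D.S (L ^ f) (D.W (seq D n)))
        ≤ (1 - (1 / 2) ^ n) * (L ^ e) ^ (j - a) + (L ^ f) ^ (j - a) * (1 / 2) ^ (n + 1) :=
          (D.p_sub _ _ _).trans (add_le_add (h.high j hj) hv')
      _ ≤ (1 - (1 / 2) ^ n) * (L ^ f) ^ (j - a) + (L ^ f) ^ (j - a) * (1 / 2) ^ (n + 1) := by
          gcongr
          exact sub_nonneg.2 (pow_le_one₀ (by norm_num) (by norm_num))
      _ = _ := by rw [← half_step n]; ring
  · intro i hi
    have hd := decay D (c := L) (k := 1) (d := 1) (β := bexp a) h1 h1 le_rfl zero_le_one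
      (show 4 * D.a + 4 ≤ e by omega) hf le_rfl (fun i hi => hC i (hi.trans hK)) h2 h.sup hgood
      (fun j hj => by rw [one_mul]; exact hbd j (hj.trans hK)) h.err (h.step_small h2 hrho hC) i hi
    refine hd.trans ?_
    rw [one_pow, mul_one, div_le_div_iff₀ (by positivity) (by positivity)]
    calc L ^ 5 * (1 + 1 ^ 2) * L ^ (bexp a * f) ≤ L ^ 5 * L * L ^ (bexp a * f) := by
          gcongr; linarith
      _ = L ^ (bexp a * f + 6) := by ring
      _ ≤ L ^ ((bexp a + 1) * f) := pow_le_pow_right₀ h1 (by rw [Nat.add_one_mul]; omega)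
      _ = _ := (one_mul _).symm

lemma inv_all (h2 : 2 ≤ D.Lam) (hrho : D.Lam⁻¹ ≤ D.rho)
    (hC : ∀ i ≤ order D.a, |D.C i| ≤ D.Lam)
    (h0 : ∀ i ≤ D.a, D.err i 0 * D.Lam ^ smallExp D.a ≤ 1) : ∀ n, Inv D n := by
  intro n
  induction n with
  | zero =>
    refine ⟨D.sup_zero _, by simp [seq, D.p_zero], fun j _ => by simp [seq, D.p_zero],
      fun j hj => ?_⟩
    rw [le_div_iff₀ (pow_pos (by linarith) _)]
    refine le_trans ?_ (h0 j hj)
    refine mul_le_mul_of_nonneg_left (pow_le_pow_right₀ (by linarith) ?_) (D.err_nonneg _ _)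
    show bexp D.a * (4 * D.a + 4) ≤ 400 * (D.a + 1) ^ 2
    calc bexp D.a * (4 * D.a + 4) = 240 * (D.a + 1) ^ 2 := by simp only [bexp]; ring
      _ ≤ _ := Nat.mul_le_mul_right _ (by norm_num)
  | succ n ih => exact ih.succ h2 hrho hC

/-- all seminorms are controlled by powers of the frequency -/
lemma growth_le (h2 : 2 ≤ D.Lam) (hrho : D.Lam⁻¹ ≤ D.rho) (hI : ∀ n, Inv D n) (j : ℕ) {c : ℝ}
    (hc : 1 ≤ c) (hC : ∀ i ≤ max j D.a, |D.C i| ≤ c) (n : ℕ) :
    D.p j (seq D n) ≤ c ^ 2 * (D.Lam ^ es D.a n) ^ (j - D.a) := by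
  have h1 : 1 ≤ D.Lam := by linarith
  refine le_trans ?_ (mul_le_of_le_one_left (by positivity)
    (sub_le_self (1 : ℝ) (pow_nonneg (show (0 : ℝ) ≤ 1 / 2 by norm_num) n)))
  induction n with
  | zero => simp [seq, D.p_zero]
  | succ n ih =>
    set a := D.a
    set L := D.Lam
    set e := es a n
    set f := es a (n + 1) with hfdef
    have hge := es_ge a n
    have hf : f = e + e / 2 := rfl
    have hgood := ((hI n).good h1 hrho).2
    have hs : L ≤ L ^ e := le_self_pow₀ h1 (by omega)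
    have hsu : 2 * L ^ e ≤ L ^ f := by
      calc 2 * L ^ e ≤ L * L ^ e := by gcongr
        _ = L ^ (e + 1) := by ring
        _ ≤ L ^ f := pow_le_pow_right₀ h1 (by omega)
    have hw := D.W_le 0 (L ^ e) (1 / L ^ (bexp a * e)) (seq D n) hs hgood
      (fun l hl => ((hI n).high l (by simp only [order]; omega)).trans
        (mul_le_of_le_one_left (by positivity) (sub_le_self _ (by positivity))))
      fun l hl => ((hI n).err l (by omega)).trans
        (le_mul_of_one_le_right (by positivity) (one_le_pow₀ (hs.trans' h1)))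
    simp only [Nat.zero_add, Nat.mul_one] at hw
    have hexp : (a + a) * f + a + a * e + (n + 1) ≤ bexp a * e := by
      have := Nat.mul_le_mul_left (a + a) (show 2 * f ≤ 3 * e by omega)
      simp only [bexp]
      nlinarith
    have hc' := corr_le D (k := 1) (d := 1) h1 hexp zero_le_one zero_le_one
    simp only [one_pow, one_mul] at hc'
    have hj2 : (L ^ f) ^ (j + a) ≤ (L ^ f) ^ (j - a) * (L ^ f) ^ (a + a) := by
      rw [← pow_add]; exact pow_le_pow_right₀ (one_le_pow₀ h1) (by omega)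
    have hv : D.p j (D.S (L ^ f) (D.W (seq D n))) ≤
        c ^ 2 * (L ^ f) ^ (j - a) * (1 / 2) ^ (n + 1) := by
      refine (D.smooth_le j _ _ _ hs hsu hgood (hI n).sup).trans ?_
      calc D.C j * (L ^ f) ^ (j + a) * D.p 0 (D.W (seq D n))
          ≤ c * (L ^ f) ^ (j + a) * (c * (L ^ a * (L ^ e) ^ a * (1 / L ^ (bexp a * e)))) := by
            refine mul_le_mul (mul_le_mul_of_nonneg_right ((le_abs_self _).trans
              (hC j (le_max_left _ _))) (by positivity)) (hw.trans ?_) (D.p_nonneg _ _)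
              (by positivity)
            rw [← mul_assoc c, ← mul_assoc c]
            gcongr
            exact (le_abs_self _).trans (hC 0 (Nat.zero_le _))
        _ ≤ c * ((L ^ f) ^ (j - a) * (L ^ f) ^ (a + a)) *
              (c * (L ^ a * (L ^ e) ^ a * (1 / L ^ (bexp a * e)))) := by gcongr
        _ = c ^ 2 * (L ^ f) ^ (j - a) * ((L ^ f) ^ (a + a) *
              (L ^ a * (L ^ e) ^ a * (1 / L ^ (bexp a * e)))) := by ring
        _ ≤ c ^ 2 * (L ^ f) ^ (j - a) * (1 / 2) ^ (n + 1) := by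
            gcongr
            refine hc'.trans ?_
            rw [one_div_pow]
            exact one_div_le_one_div_of_le (by positivity) (pow_le_pow_left₀ (by norm_num) h2 _)
    calc D.p j (seq D n - D.S (L ^ f) (D.W (seq D n)))
        ≤ (1 - (1 / 2) ^ n) * (c ^ 2 * (L ^ e) ^ (j - a)) + c ^ 2 * (L ^ f) ^ (j - a) * (1 / 2) ^ (n + 1) :=
          (D.p_sub _ _ _).trans (add_le_add ih hv)
      _ ≤ (1 - (1 / 2) ^ n) * (c ^ 2 * (L ^ f) ^ (j - a)) + c ^ 2 * (L ^ f) ^ (j - a) * (1 / 2) ^ (n + 1) := by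
          gcongr
          · exact sub_nonneg.2 (pow_le_one₀ (by norm_num) (by norm_num))
          · omega
      _ = _ := by rw [← half_step n]; ring

/-- the error decays faster than any power of the frequency, with a bound which depends only on
the constants and on the size of the initial error -/
lemma exists_decay (a₀ : ℕ) (C₀ : ℕ → ℝ) (E : ℕ → ℝ) (m : ℕ) :
    ∃ d : ℝ, 0 ≤ d ∧ ∀ D : Data X, D.a = a₀ → D.C = C₀ → 2 ≤ D.Lam → D.Lam⁻¹ ≤ D.rho →
      (∀ i ≤ order D.a, |D.C i| ≤ D.Lam) → (∀ n, Inv D n) → (∀ N, ∀ i ≤ D.a, D.err i 0 * D.Lam ^ N ≤ E N) → ∀ n, ∀ i ≤ D.a,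
      D.err i (seq D n) ≤ d / D.Lam ^ ((bexp D.a + m) * es D.a n) := by
  induction m with
  | zero =>
    exact ⟨1, zero_le_one, fun D _ _ _ _ _ hI _ n i hi => by simpa using (hI n).err i hi⟩
  | succ m ih =>
    obtain ⟨d, hd, hdec⟩ := ih
    set N := kexp a₀ (bexp a₀ + m) + 2 * a₀
    set c := 1 + ∑ i ∈ range (N + a₀ + 1), |C₀ i| with hc'
    have hc : 1 ≤ c := le_add_of_nonneg_right (sum_nonneg fun _ _ => abs_nonneg _)
    set k := c ^ 2
    have hk : 1 ≤ k := one_le_pow₀ hc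
    refine ⟨c ^ 5 * k ^ (kexp a₀ (bexp a₀ + m) + 4 * a₀) * (1 + d ^ 2) +
      |E ((bexp a₀ + (m + 1)) * es a₀ 0)|, by positivity,
      fun D ha hCD h2 hrho hCo hI hE n i hi => ?_⟩
    subst a₀
    set a := D.a
    set L := D.Lam
    have h1 : 1 ≤ L := by linarith
    have hC : ∀ i ≤ N + a, |D.C i| ≤ c := fun i hi => by
      rw [hCD, hc']
      exact le_add_of_nonneg_of_le zero_le_one
        (single_le_sum (f := fun i => |C₀ i|) (fun _ _ => abs_nonneg _) (mem_range.2 (by omega)))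
    rcases n with _ | n
    · rw [le_div_iff₀ (by positivity)]
      refine le_add_of_nonneg_of_le (by positivity) ?_
      exact (hE _ i hi).trans (le_abs_self _)
    · have hx : ∀ j ≤ N, D.p j (seq D n) ≤ (k * L ^ es a n) ^ (j - a) := fun j hj => by
        rcases Nat.lt_or_ge a j with hj0 | hj0
        · refine (growth_le h2 hrho hI j hc (fun i hi => hC i (by omega)) n).trans ?_
          rw [mul_pow]
          gcongr
          exact le_self_pow₀ hk (by omega)
        · rw [Nat.sub_eq_zero_of_le hj0, pow_zero]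
          exact ((D.p_mono j a _ hj0).trans ((hI n).good h1 hrho).1).trans
            (inv_le_one_of_one_le₀ h1)
      have hge := es_ge a n
      refine (decay D h1 hc hk hd (show 4 * D.a + 4 ≤ es a n by omega) (f := es a (n + 1)) rfl
        (Nat.le_add_right _ m) (fun i hi => hC i (hi.trans (Nat.le_add_right _ _))) h2 (hI n).sup
        ((hI n).good h1 hrho).2 hx (hdec D rfl hCD h2 hrho hCo hI hE n)
        ((hI n).step_small h2 hrho hCo) i hi).trans ?_
      rw [Nat.add_assoc]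
      exact div_le_div_of_nonneg_right (le_add_of_nonneg_right (abs_nonneg _)) (by positivity)

/-- Every seminorm of the corrections is smaller than any power of the frequency, with a bound
which depends only on the constants and on the size of the initial error. -/
lemma exists_increment (a₀ : ℕ) (C₀ : ℕ → ℝ) (E : ℕ → ℝ) (i m : ℕ) :
    ∃ G : ℝ, 0 ≤ G ∧ ∀ D : Data X, D.a = a₀ → D.C = C₀ → 2 ≤ D.Lam → D.Lam⁻¹ ≤ D.rho →
      (∀ i ≤ order D.a, |D.C i| ≤ D.Lam) → (∀ n, Inv D n) → (∀ N, ∀ j ≤ D.a, D.err j 0 * D.Lam ^ N ≤ E N) → ∀ n,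
      D.p i (seq D (n + 1) - seq D n) ≤ G * (1 / 2) ^ n / D.Lam ^ m := by
  obtain ⟨d, hd, hdec⟩ := exists_decay (X := X) a₀ C₀ E (2 * i + m)
  set c := 1 + ∑ l ∈ range (i + 1), |C₀ l| with hc'
  have hc : 1 ≤ c := le_add_of_nonneg_right (sum_nonneg fun _ _ => abs_nonneg _)
  refine ⟨c ^ 2 * d, by positivity, fun D ha hCD h2 hrho hCo hI hE n => ?_⟩
  subst a₀
  have h1 : 1 ≤ D.Lam := by linarith
  have hb : ∀ n k, n ≤ k → (1 : ℝ) / D.Lam ^ k ≤ (1 / 2) ^ n := fun n k hnk => by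
    rw [one_div_pow]
    exact one_div_le_one_div_of_le (by positivity)
      ((pow_le_pow_left₀ (by norm_num) h2 n).trans (pow_le_pow_right₀ h1 hnk))
  have hC' : ∀ l ≤ i, |D.C l| ≤ c := fun l hl => by
    rw [hCD, hc']
    exact le_add_of_nonneg_of_le zero_le_one
      (single_le_sum (f := fun l => |C₀ l|) (fun _ _ => abs_nonneg _) (mem_range.2 (by omega)))
  set a := D.a
  set L := D.Lam
  set e := es a n
  have hge := es_ge a n
  have hgood := ((hI n).good h1 hrho).2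
  have hs : L ≤ L ^ e := le_self_pow₀ h1 (by omega)
  have hsu : 2 * L ^ e ≤ L ^ es a (n + 1) := by
    calc 2 * L ^ e ≤ L * L ^ e := by gcongr
      _ = L ^ (e + 1) := by ring
      _ ≤ _ := pow_le_pow_right₀ h1 (by simp only [es]; omega)
  have hw := D.W_le 0 (L ^ e) (d / L ^ ((bexp a + (2 * i + m)) * e)) (seq D n) hs hgood
    (fun l hl => ((hI n).high l (by simp only [order]; omega)).trans
      (mul_le_of_le_one_left (by positivity) (sub_le_self _ (by positivity))))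
    fun l hl => (hdec D rfl hCD h2 hrho hCo hI hE n l (by omega)).trans
      (le_mul_of_one_le_right (by positivity) (one_le_pow₀ (hs.trans' h1)))
  simp only [Nat.zero_add, Nat.mul_one] at hw
  have hexp : (i + a) * es a (n + 1) + a + a * e + (n + m) ≤ (bexp a + (2 * i + m)) * e := by
    have := Nat.mul_le_mul_left (i + a) (show 2 * es a (n + 1) ≤ 3 * e by
      simp only [e, es]; omega)
    simp only [bexp]
    have := Nat.mul_le_mul_left m (show 1 ≤ e by omega)
    nlinarith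
  have hsub : seq D (n + 1) - seq D n = (0 : X) - D.S (L ^ es a (n + 1)) (D.W (seq D n)) := by
    simp only [seq, zero_sub, sub_sub_cancel_left]
    rfl
  rw [hsub]
  refine (D.p_sub _ _ _).trans ?_
  rw [D.p_zero, zero_add]
  refine (D.smooth_le i _ _ _ hs hsu hgood (hI n).sup).trans ?_
  have hc' := corr_le D (k := 1) h1 hexp zero_le_one hd
  simp only [one_pow, one_mul] at hc'
  calc D.C i * (L ^ es a (n + 1)) ^ (i + a) * D.p 0 (D.W (seq D n))
      ≤ c * (L ^ es a (n + 1)) ^ (i + a) *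
          (c * (L ^ a * (L ^ e) ^ a * (d / L ^ ((bexp a + (2 * i + m)) * e)))) := by
        refine mul_le_mul (mul_le_mul_of_nonneg_right ((le_abs_self _).trans (hC' i le_rfl))
          (by positivity)) (hw.trans ?_) (D.p_nonneg _ _) (by positivity)
        rw [← mul_assoc c, ← mul_assoc c]
        gcongr
        exact (le_abs_self _).trans (hC' 0 (Nat.zero_le _))
    _ = c ^ 2 * ((L ^ es a (n + 1)) ^ (i + a) *
          (L ^ a * (L ^ e) ^ a * (d / L ^ ((bexp a + (2 * i + m)) * e)))) := by ring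
    _ ≤ c ^ 2 * (d / L ^ (n + m)) := by gcongr
    _ = c ^ 2 * d * (1 / L ^ n) / L ^ m := by rw [pow_add]; field_simp
    _ ≤ c ^ 2 * d * (1 / 2) ^ n / L ^ m := by gcongr; exact hb n n le_rfl

/-- Exact correction with bounds on all seminorms. -/
theorem exists_solution_bound (a₀ : ℕ) (C₀ : ℕ → ℝ) (E : ℕ → ℝ) :
    ∃ G : ℕ → ℕ → ℝ, (∀ i m, 0 ≤ G i m) ∧ ∀ D : Data X, D.a = a₀ → D.C = C₀ → 2 ≤ D.Lam →
      D.Lam⁻¹ ≤ D.rho → (∀ i ≤ order D.a, |D.C i| ≤ D.Lam) →
      (∀ i ≤ D.a, D.err i 0 * D.Lam ^ smallExp D.a ≤ 1) →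
      (∀ N, ∀ j ≤ D.a, D.err j 0 * D.Lam ^ N ≤ E N) →
      ∃ (u : ℕ → X) (T : ℕ → ℝ), u 0 = 0 ∧
        (∀ n, D.Lam ≤ T n ∧ 2 * T n ≤ T (n + 1) ∧ D.Sup (T n) (u n) ∧ D.p D.a (u n) ≤ D.Lam⁻¹) ∧
        (∀ i m n, D.p i (u (n + 1) - u n) ≤ G i m * (1 / 2) ^ n / D.Lam ^ m) ∧
        ∀ i ≤ D.a, Filter.Tendsto (fun n => D.err i (u n)) Filter.atTop (nhds 0) := by
  choose G hG0 hG using exists_increment (X := X) a₀ C₀ E
  refine ⟨G, hG0, fun D ha hCD h2 hrho hC h0 hE => ?_⟩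
  have h1 : 1 ≤ D.Lam := by linarith
  have hI := inv_all h2 hrho hC h0
  refine ⟨seq D, fun n => D.Lam ^ es D.a n, rfl, fun n => ⟨?_, ?_, (hI n).sup,
    ((hI n).good h1 hrho).1⟩, fun i m n => hG i m D ha hCD h2 hrho hC hI hE n, fun i hi => ?_⟩
  · exact le_self_pow₀ h1 (by have := es_ge D.a n; omega)
  · calc 2 * D.Lam ^ es D.a n ≤ D.Lam * D.Lam ^ es D.a n := by gcongr
      _ = D.Lam ^ (es D.a n + 1) := by ring
      _ ≤ _ := pow_le_pow_right₀ h1 (by have := es_ge D.a n; simp only [es]; omega)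
  · refine squeeze_zero (fun n => D.err_nonneg _ _) (fun n => ((hI n).err i hi).trans (?_ : _ ≤ ((1 : ℝ) / 2) ^ n))
      (tendsto_pow_atTop_nhds_zero_of_lt_one (by norm_num) (by norm_num))
    rw [one_div_pow]
    refine one_div_le_one_div_of_le (by positivity)
      ((pow_le_pow_left₀ (by norm_num) h2 n).trans (pow_le_pow_right₀ h1 ?_))
    have := es_ge D.a n
    simp only [bexp]
    nlinarith


/-- Exact correction of an approximate solution. -/
theorem exists_solution (D : Data X) (h2 : 2 ≤ D.Lam) (hrho : D.Lam⁻¹ ≤ D.rho)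
    (hC : ∀ i ≤ order D.a, |D.C i| ≤ D.Lam)
    (h0 : ∀ i ≤ D.a, D.err i 0 * D.Lam ^ smallExp D.a ≤ 1) :
    ∃ (u : ℕ → X) (T : ℕ → ℝ), u 0 = 0 ∧
      (∀ n, D.Lam ≤ T n ∧ 2 * T n ≤ T (n + 1) ∧ D.Sup (T n) (u n) ∧ D.p D.a (u n) ≤ D.Lam⁻¹) ∧
      (∀ i, Summable fun n => D.p i (u (n + 1) - u n)) ∧
      ∀ i ≤ D.a, Filter.Tendsto (fun n => D.err i (u n)) Filter.atTop (nhds 0) := by
  obtain ⟨G, -, hG⟩ := exists_solution_bound (X := X) D.a D.C
    fun N => ∑ j ∈ range (D.a + 1), D.err j 0 * D.Lam ^ N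
  obtain ⟨u, T, hu0, hu, hinc, he⟩ := hG D rfl rfl h2 hrho hC h0 fun N j hj =>
    single_le_sum (f := fun j => D.err j 0 * D.Lam ^ N)
      (fun _ _ => mul_nonneg (D.err_nonneg _ _) (by positivity)) (mem_range.2 (by omega))
  refine ⟨u, T, hu0, hu, fun i => ?_, he⟩
  exact Summable.of_nonneg_of_le (fun n => D.p_nonneg _ _)
    (fun n => (hinc i 0 n).trans (by rw [pow_zero, div_one]))
    ((summable_geometric_of_lt_one (by norm_num) (show (1 / 2 : ℝ) < 1 by norm_num)).mul_left _)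

end Vale.Agent.P205.Newton
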